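import Vale.Agent.P064.Linear.Boundary

/-! There are few connected edge sets. -/

namespace Vale.Agent.P064.Linear

open Finset

set_option linter.unusedSectionVars false

section Cube

variable {E : Type} [DecidableEq E]

/-- The weight of a set in a binomial random subset. -/
noncomputable def bw (EH : Finset E) (p : ℝ) (x : Finset E) : ℝ :=
  p ^ x.card * (1 - p) ^ (EH.card - x.card)

lemma bw_nonneg (EH : Finset E) {p : ℝ} (h0 : 0 ≤ p) (h1 : p ≤ 1) (x : Finset E) :
    0 ≤ bw EH p x := mul_nonneg (pow_nonneg h0 _) (pow_nonneg (by linarith) _)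

lemma sum_bw (EH : Finset E) (p : ℝ) : ∑ x ∈ EH.powerset, bw EH p x = 1 := by
  simp only [bw]
  rw [sum_pow_mul_eq_add_pow, add_sub_cancel, one_pow]

/-- The chance of containing one set and missing another. -/
lemma sum_bw_filter {EH S B : Finset E} (p : ℝ) (hS : S ⊆ EH) (hB : B ⊆ EH) (hd : Disjoint S B) :
    ∑ x ∈ EH.powerset.filter (fun x => S ⊆ x ∧ Disjoint B x), bw EH p x
      = p ^ S.card * (1 - p) ^ B.card := by
  set R := EH \ (S ∪ B) with hR
  have himg : EH.powerset.filter (fun x => S ⊆ x ∧ Disjoint B x)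
      = R.powerset.image (fun y => S ∪ y) := by
    ext x
    simp only [mem_filter, mem_powerset, mem_image, hR]
    constructor
    · rintro ⟨hx, hSx, hBx⟩
      refine ⟨x \ S, fun a ha => ?_, union_sdiff_of_subset hSx⟩
      obtain ⟨hax, haS⟩ := mem_sdiff.1 ha
      exact mem_sdiff.2 ⟨hx hax, fun h => (mem_union.1 h).elim haS
        fun haB => disjoint_left.1 hBx haB hax⟩
    · rintro ⟨y, hy, rfl⟩
      refine ⟨union_subset hS fun a ha => (mem_sdiff.1 (hy ha)).1, subset_union_left,
        disjoint_left.2 fun a haB ha => ?_⟩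
      rcases mem_union.1 ha with ha | ha
      · exact disjoint_left.1 hd ha haB
      · exact (mem_sdiff.1 (hy ha)).2 (mem_union_right _ haB)
  have hdis : ∀ y ∈ R.powerset, Disjoint S y := fun y hy => disjoint_left.2 fun a ha hay =>
    (mem_sdiff.1 (mem_powerset.1 hy hay)).2 (mem_union_left _ ha)
  rw [himg, sum_image fun y hy y' hy' h => ?_]
  swap
  · calc y = (S ∪ y) \ S := (union_sdiff_cancel_left (hdis y hy)).symm
      _ = (S ∪ y') \ S := by rw [show S ∪ y = S ∪ y' from h]
      _ = y' := union_sdiff_cancel_left (hdis y' hy')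
  have hsum := sum_bw R p
  have hEH : EH.card = S.card + B.card + R.card := by
    rw [hR, card_sdiff_of_subset (union_subset hS hB), card_union_of_disjoint hd]
    have := card_le_card (union_subset hS hB)
    rw [card_union_of_disjoint hd] at this
    omega
  calc ∑ y ∈ R.powerset, bw EH p (S ∪ y)
      = ∑ y ∈ R.powerset, p ^ S.card * (1 - p) ^ B.card * bw R p y := by
        refine sum_congr rfl fun y hy => ?_
        have := card_le_card (mem_powerset.1 hy)
        simp only [bw, card_union_of_disjoint (hdis y hy), hEH, pow_add]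
        rw [show S.card + B.card + R.card - (S.card + y.card) = B.card + (R.card - y.card) by omega,
          pow_add]
        ring
    _ = _ := by rw [← mul_sum, hsum, mul_one]

end Cube

variable {V : Type} [Fintype V] [DecidableEq V] {n : ℕ} {q A : ℝ} {EH : Finset (Sym2 V)}

/-- The constant in the count of connected edge sets. -/
noncomputable def cnum : ℝ := 2 * Real.exp 24

lemma one_le_cnum : 1 ≤ cnum := by
  have := Real.one_le_exp (show (0 : ℝ) ≤ 24 by norm_num)
  unfold cnum; linarith

open scoped Classical in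
/-- The connected edge sets of a given size. -/
noncomputable def animals (EH : Finset (Sym2 V)) (r : ℕ) : Finset (Finset (Sym2 V)) :=
  EH.powerset.filter fun S => EConn S ∧ S.card = r

open scoped Classical in
/-- Two connected sets through a vertex, both present with their boundaries absent, are equal. -/
lemma present_unique {S S' x : Finset (Sym2 V)} (hS : EConn S) (hSE : S ⊆ EH) {z : V}
    (hz : z ∈ verts S) (hz' : z ∈ verts S') (hSx : S ⊆ x) (hd : Disjoint (bd EH S') x) :
    S ⊆ S' := by
  have hno : ∀ f ∈ S, ∀ a ∈ f, a ∈ verts S' → f ∈ S' := by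
    intro f hf a haf ha
    by_contra hne
    exact disjoint_left.1 hd (mem_filter.2 ⟨mem_sdiff.2 ⟨hSE hf, hne⟩, a, ha, haf⟩) (hSx hf)
  obtain ⟨e, he, hze⟩ := mem_verts.1 hz
  have hne : (S ∩ S').Nonempty := ⟨e, mem_inter.2 ⟨he, hno e he z hze hz'⟩⟩
  by_contra hns
  have hne' : S ∩ S' ≠ S := fun h => hns (inter_eq_left.1 h)
  obtain ⟨a, ha, ha'⟩ := hS.2 _ inter_subset_left hne hne'
  obtain ⟨f, hf, haf⟩ := mem_verts.1 ha'
  obtain ⟨hfS, hfn⟩ := mem_sdiff.1 hf
  exact hfn (mem_inter.2 ⟨hfS, hno f hfS a haf (verts_mono inter_subset_right ha)⟩)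

open scoped Classical in
/-- The number of connected edge sets of a given size. -/
theorem animals_le (h : Host n q A EH) (r : ℕ) :
    ((animals EH r).card : ℝ) ≤ (n : ℝ) ^ 2 * (cnum * A) ^ r := by
  obtain ⟨hn, hA, hl, -, -, -⟩ := h.pos
  have hA3 := h.hA
  set p : ℝ := 1 / (2 * A) with hp
  have hp0 : 0 < p := by positivity
  have hp1 : p ≤ 1 / 6 := by rw [hp, div_le_div_iff₀ (by positivity) (by norm_num)]; linarith
  have hone : Real.exp (-(1 / A)) ≤ 1 - p := by
    have h1 := Real.add_one_le_exp (1 / A)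
    have h2 : 0 < 1 + 1 / A := by positivity
    rw [Real.exp_neg]
    refine le_trans (inv_anti₀ h2 (by linarith)) ?_
    rw [inv_le_iff_one_le_mul₀ h2, hp, one_div, mul_inv]
    have h3 : A⁻¹ ≤ 1 := inv_le_one_of_one_le₀ (by linarith)
    have h4 : (0 : ℝ) ≤ A⁻¹ := by positivity
    rw [one_div]
    nlinarith
  have hterm : ∀ S ∈ animals EH r, 1 ≤ (n : ℝ) * (cnum * A) ^ r
      * (p ^ S.card * (1 - p) ^ (bd EH S).card) := by
    intro S hS
    obtain ⟨hSE, hSC, hSr⟩ := mem_filter.1 hS
    have hb := bd_card_le h hSC (mem_powerset.1 hSE)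
    rw [hSr] at hb ⊢
    have h1 : Real.exp (-(2 * Real.log n / A + 24 * r)) ≤ (1 - p) ^ (bd EH S).card := by
      refine le_trans ?_ (pow_le_pow_left₀ (Real.exp_pos _).le hone _)
      rw [← Real.exp_nat_mul, Real.exp_le_exp, mul_neg, neg_le_neg_iff, ← mul_div_assoc, mul_one,
        div_le_iff₀ hA, add_mul, div_mul_cancel₀ _ hA.ne']
      linarith
    have h2 : (1 : ℝ) / n ≤ Real.exp (-(2 * Real.log n / A)) := by
      have h5 : 2 * Real.log n / A ≤ Real.log n := by
        rw [div_le_iff₀ hA]; nlinarith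
      rw [one_div, ← Real.exp_log hn, ← Real.exp_neg, Real.exp_log hn, Real.exp_le_exp]
      linarith
    calc (1 : ℝ) = (n : ℝ) * (cnum * A) ^ r * (p ^ r * ((1 / n) * Real.exp (-(24 * r)))) := by
          rw [show cnum * A = Real.exp 24 * (2 * A) by rw [cnum]; ring, mul_pow, hp, one_div_pow,
            Real.exp_neg, mul_comm 24 (r : ℝ), Real.exp_nat_mul]
          field_simp
      _ ≤ _ := by
          refine mul_le_mul_of_nonneg_left (mul_le_mul_of_nonneg_left ?_ (by positivity))
            (by have := one_le_cnum; positivity)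
          refine le_trans ?_ h1
          rw [neg_add, Real.exp_add]
          gcongr
  have hz : ∀ z : V, (((animals EH r).filter fun S => z ∈ verts S).card : ℝ)
      ≤ (n : ℝ) * (cnum * A) ^ r := by
    intro z
    set F := (animals EH r).filter fun S => z ∈ verts S with hF
    calc (F.card : ℝ) = ∑ S ∈ F, (1 : ℝ) := by simp
      _ ≤ ∑ S ∈ F, (n : ℝ) * (cnum * A) ^ r * (p ^ S.card * (1 - p) ^ (bd EH S).card) :=
          sum_le_sum fun S hS => hterm S (mem_filter.1 hS).1
      _ = (n : ℝ) * (cnum * A) ^ r * ∑ S ∈ F,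
            ∑ x ∈ EH.powerset.filter (fun x => S ⊆ x ∧ Disjoint (bd EH S) x), bw EH p x := by
          rw [mul_sum]
          refine sum_congr rfl fun S hS => ?_
          have hsub : bd EH S ⊆ EH := fun e he => (mem_sdiff.1 (mem_filter.1 he).1).1
          have hdj : Disjoint S (bd EH S) :=
            disjoint_left.2 fun e he he' => (mem_sdiff.1 (mem_filter.1 he').1).2 he
          rw [sum_bw_filter p (mem_powerset.1 (mem_filter.1 (mem_filter.1 hS).1).1) hsub hdj]
      _ ≤ (n : ℝ) * (cnum * A) ^ r * 1 := by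
          refine mul_le_mul_of_nonneg_left ?_ (by have := one_le_cnum; positivity)
          rw [← sum_biUnion]
          · rw [← sum_bw EH p]
            exact sum_le_sum_of_subset_of_nonneg (fun x hx => by
              obtain ⟨S, -, hx⟩ := mem_biUnion.1 hx
              exact (mem_filter.1 hx).1) fun x _ _ => bw_nonneg EH hp0.le (by linarith) x
          · intro S hS S' hS' hne
            refine disjoint_left.2 fun x hx hx' => hne ?_
            obtain ⟨-, hSx, hdS⟩ := mem_filter.1 hx
            obtain ⟨-, hS'x, hdS'⟩ := mem_filter.1 hx'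
            obtain ⟨hS1, hzS⟩ := mem_filter.1 hS
            obtain ⟨hS1', hzS'⟩ := mem_filter.1 hS'
            obtain ⟨hE, hC, -⟩ := mem_filter.1 hS1
            obtain ⟨hE', hC', -⟩ := mem_filter.1 hS1'
            exact subset_antisymm (present_unique hC (mem_powerset.1 hE) hzS hzS' hSx hdS')
              (present_unique hC' (mem_powerset.1 hE') hzS' hzS hS'x hdS)
      _ = _ := mul_one _
  calc ((animals EH r).card : ℝ)
      ≤ ∑ z : V, (((animals EH r).filter fun S => z ∈ verts S).card : ℝ) := by
        refine le_trans (Nat.cast_le.2 (card_le_card fun S hS => ?_))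
          (le_trans (Nat.cast_le.2 card_biUnion_le) (le_of_eq (Nat.cast_sum _ _)))
        obtain ⟨e, he⟩ := (mem_filter.1 hS).2.1.1
        exact mem_biUnion.2 ⟨e.out.1, mem_univ _, mem_filter.2 ⟨hS, mem_verts.2 ⟨e, he,
          Sym2.out_fst_mem e⟩⟩⟩
    _ ≤ ∑ _z : V, (n : ℝ) * (cnum * A) ^ r := sum_le_sum fun z _ => hz z
    _ ≤ (n : ℝ) * ((n : ℝ) * (cnum * A) ^ r) := by
        rw [sum_const, card_univ, nsmul_eq_mul]
        exact mul_le_mul_of_nonneg_right (Nat.cast_le.2 h.hv)
          (by have := one_le_cnum; positivity)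
    _ = _ := by ring

end Vale.Agent.P064.Linear
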