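import Vale.Agent.P064.Linear.Conn

/-! Connected edge sets have few edges leaving them. -/

namespace Vale.Agent.P064.Linear

open Finset

set_option linter.unusedSectionVars false

variable {V : Type} [Fintype V] [DecidableEq V]

/-- A host on at most `n` vertices in which no subgraph is unlikely at density `q`, where
`n q` is at most `A`. -/
structure Host (n : ℕ) (q A : ℝ) (EH : Finset (Sym2 V)) : Prop where
  nn : 2 ≤ n
  hv : Fintype.card V ≤ n
  q0 : 0 < q
  hA : 3 ≤ A
  hnq : (n : ℝ) * q ≤ A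
  hA2 : A ^ 2 ≤ n
  nd : ∀ e ∈ EH, ¬ e.IsDiag
  hyp : ∀ (U : Finset V) (E : Finset (Sym2 V)), E ⊆ EH → (∀ e ∈ E, ∀ a ∈ e, a ∈ U) →
    ∀ G : Finset (Equiv.Perm V), (∀ σ ∈ G, (∀ a ∈ U, σ a ∈ U) ∧ ∀ e ∈ E, e.map σ ∈ E) →
      (∀ σ ∈ G, ∀ τ ∈ G, (∀ a ∈ U, σ a = τ a) → σ = τ) →
      (G.card : ℝ) ≤ 2 * (n : ℝ) ^ U.card * q ^ E.card

variable {n : ℕ} {q A : ℝ} {EH : Finset (Sym2 V)}

lemma Host.pos (h : Host n q A EH) : (0 : ℝ) < n ∧ 0 < A ∧ (0 : ℝ) < Real.log n ∧
    Real.log 2 ≤ Real.log n ∧ 0 ≤ Real.log A ∧ 2 * Real.log A ≤ Real.log n := by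
  have h2 : (2 : ℝ) ≤ n := by exact_mod_cast h.nn
  have hA := h.hA
  refine ⟨by linarith, by linarith, Real.log_pos (by linarith), Real.log_le_log two_pos h2,
    Real.log_nonneg (by linarith), ?_⟩
  have := Real.log_le_log (pow_pos (show 0 < A by linarith) 2) h.hA2
  rw [Real.log_pow] at this
  push_cast at this
  exact this

/-- The hypothesis in logarithmic form. -/
lemma Host.log_hyp (h : Host n q A EH) {a b : ℕ} {x : ℝ} (hx : 0 < x)
    (hle : x ≤ 2 * (n : ℝ) ^ a * q ^ b) :
    Real.log x ≤ Real.log 2 + ((a : ℝ) - b) * Real.log n + b * Real.log A := by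
  have hn := h.pos.1
  have h1 := Real.log_le_log hx hle
  rw [Real.log_mul (mul_pos two_pos (pow_pos hn a)).ne' (pow_pos h.q0 b).ne',
    Real.log_mul two_ne_zero (pow_pos hn a).ne', Real.log_pow, Real.log_pow] at h1
  have h2 := Real.log_le_log (mul_pos hn h.q0) h.hnq
  rw [Real.log_mul hn.ne' h.q0.ne'] at h2
  have h3 := mul_le_mul_of_nonneg_left h2 (Nat.cast_nonneg (α := ℝ) b)
  linarith

/-- Every subgraph is expected to appear. -/
lemma Host.trivial_hyp (h : Host n q A EH) {U : Finset V} {E : Finset (Sym2 V)} (hE : E ⊆ EH)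
    (hU : verts E ⊆ U) : (1 : ℝ) ≤ 2 * (n : ℝ) ^ U.card * q ^ E.card := by
  have := h.hyp U E hE (fun e he a ha => hU (mem_verts.2 ⟨e, he, ha⟩)) {1}
    (fun σ hσ => by rw [mem_singleton.1 hσ]; simp)
    (fun σ hσ τ hτ _ => by rw [mem_singleton.1 hσ, mem_singleton.1 hτ])
  simpa using this

lemma log_factorial_ge (hA : 0 < A) (k : ℕ) :
    (k : ℝ) * (2 + Real.log A) - 8 * A ≤ Real.log (k.factorial : ℝ) := by
  have hy : 0 < Real.exp 2 * A := mul_pos (Real.exp_pos 2) hA
  have h := Real.log_le_log (div_pos (pow_pos hy k) (Nat.cast_pos.2 k.factorial_pos))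
    (Real.pow_div_factorial_le_exp (Real.exp 2 * A) hy.le k)
  rw [Real.log_div (pow_pos hy k).ne' (Nat.cast_ne_zero.2 k.factorial_ne_zero), Real.log_pow,
    Real.log_mul (Real.exp_pos 2).ne' hA.ne', Real.log_exp, Real.log_exp] at h
  have he : Real.exp 2 ≤ 8 := by
    rw [show (2 : ℝ) = 1 + 1 by norm_num, Real.exp_add]
    nlinarith [Real.exp_one_lt_d9, Real.exp_pos 1]
  nlinarith [mul_le_mul_of_nonneg_right he hA.le]

/-- The vertices outside a connected edge set next to it, and the edges leaving it, are few. -/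
theorem bd_card_le (h : Host n q A EH) {S : Finset (Sym2 V)} (hS : EConn S) (hSE : S ⊆ EH) :
    ((bd EH S).card : ℝ) ≤ 2 * Real.log n + 24 * A * S.card := by
  classical
  obtain ⟨hn, hA, hl, hl2, hlA, hAn⟩ := h.pos
  set U := verts S with hU
  set X := verts (bd EH S) \ U with hX
  set r := S.card with hr
  have hr1 : (1 : ℝ) ≤ r := Nat.one_le_cast.2 (card_pos.2 hS.1)
  have hu : U.card ≤ r + 1 := card_verts_le hS
  have hpar : ∀ x ∈ X, ∃ a ∈ U, s(a, x) ∈ EH ∧ s(a, x) ∉ S := by
    intro x hx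
    obtain ⟨hxv, hxU⟩ := mem_sdiff.1 hx
    obtain ⟨e, he, hxe⟩ := mem_verts.1 hxv
    obtain ⟨heS, a, ha, hae⟩ := mem_filter.1 he
    have hne : a ≠ x := fun e => hxU (e ▸ ha)
    rw [(Sym2.mem_and_mem_iff hne).1 ⟨hae, hxe⟩] at heS
    exact ⟨a, ha, mem_sdiff.1 heS⟩
  choose par hparU hparE hparS using hpar
  set f : V → V ⊕ V := fun x => if hx : x ∈ X then Sum.inl (par x hx) else Sum.inr x with hf
  set Γ := (univ : Finset (Equiv.Perm V)).filter fun σ : Equiv.Perm V => f ∘ ⇑σ = f with hΓ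
  have hmove : ∀ σ ∈ Γ, ∀ x, f (σ x) = f x := fun σ hσ x => congrFun (mem_filter.1 hσ).2 x
  have hfix : ∀ σ ∈ Γ, ∀ x, x ∉ X → σ x = x := by
    intro σ hσ x hx
    have h1 := hmove σ hσ x
    simp only [hf, dif_neg hx] at h1
    split_ifs at h1 with h2
    exact Sum.inr_injective h1
  have hkids : ∀ σ ∈ Γ, ∀ x (hx : x ∈ X), ∃ h' : σ x ∈ X, par (σ x) h' = par x hx := by
    intro σ hσ x hx
    have h1 := hmove σ hσ x
    simp only [hf, dif_pos hx] at h1
    split_ifs at h1 with h2
    exact ⟨h2, Sum.inl_injective h1⟩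
  set EX := X.attach.image fun x => (s(par x.1 x.2, x.1) : Sym2 V) with hEX
  have hXU : ∀ x ∈ X, x ∉ U := fun x hx => (mem_sdiff.1 hx).2
  have hEXc : EX.card = X.card := by
    rw [hEX, card_image_of_injOn, card_attach]
    rintro ⟨x, hx⟩ _ ⟨y, hy⟩ _ he
    rcases Sym2.eq_iff.1 he with ⟨_, h1⟩ | ⟨_, h1⟩
    · exact Subtype.ext h1
    · refine absurd ?_ (hXU x hx)
      rw [show x = par y hy from h1]
      exact hparU y hy
  have hdisj : Disjoint S EX := disjoint_left.2 fun e he he' => by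
    obtain ⟨x, -, rfl⟩ := mem_image.1 he'
    exact hparS x.1 x.2 he
  have hcard : (S ∪ EX).card = r + X.card := by rw [card_union_of_disjoint hdisj, hEXc]
  have hUX : (U ∪ X).card = U.card + X.card :=
    card_union_of_disjoint (disjoint_left.2 fun a ha ha' => hXU a ha' ha)
  have hΓle := h.hyp (U ∪ X) (S ∪ EX) (union_subset hSE fun e he => by
      obtain ⟨x, -, rfl⟩ := mem_image.1 he
      exact hparE x.1 x.2)
    (fun e he a ha => by
      rcases mem_union.1 he with he | he
      · exact mem_union_left _ (mem_verts.2 ⟨e, he, ha⟩)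
      · obtain ⟨x, -, rfl⟩ := mem_image.1 he
        rcases Sym2.mem_iff.1 ha with rfl | rfl
        · exact mem_union_left _ (hparU x.1 x.2)
        · exact mem_union_right _ x.2)
    Γ (fun σ hσ => ⟨fun a ha => by
        rcases mem_union.1 ha with ha | ha
        · rw [hfix σ hσ a fun h' => hXU a h' ha]
          exact mem_union_left _ ha
        · exact mem_union_right _ (hkids σ hσ a ha).1,
      fun e he => by
        rcases mem_union.1 he with he | he
        · refine mem_union_left _ ?_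
          have : Sym2.map σ e = Sym2.map id e :=
            Sym2.map_congr fun a ha => hfix σ hσ a fun h' => hXU a h' (mem_verts.2 ⟨e, he, ha⟩)
          rwa [this, Sym2.map_id, id]
        · obtain ⟨⟨x, hx⟩, -, rfl⟩ := mem_image.1 he
          obtain ⟨hx', hpx⟩ := hkids σ hσ x hx
          refine mem_union_right _ (mem_image.2 ⟨⟨σ x, hx'⟩, mem_attach _ _, ?_⟩)
          simp only [Sym2.map_mk]
          rw [hfix σ hσ _ fun h' => hXU _ h' (hparU x hx), hpx]⟩)
    (fun σ hσ τ hτ hst => Equiv.ext fun a => by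
      by_cases ha : a ∈ X
      · exact hst a (mem_union_right _ ha)
      · rw [hfix σ hσ a ha, hfix τ hτ a ha])
  rw [hcard, hUX] at hΓle
  have hprod : ∏ a ∈ U, ((univ.filter fun x => f x = Sum.inl a).card.factorial : ℝ) ≤ Γ.card := by
    have e := DomMulAct.stabilizer_card f
    simp only [Fintype.card_subtype] at e
    rw [hΓ, e, Nat.cast_prod]
    refine le_trans (le_of_eq (prod_map U ⟨Sum.inl, Sum.inl_injective⟩
      (fun i : V ⊕ V => ((univ.filter fun x => f x = i).card.factorial : ℝ))).symm) ?_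
    exact prod_le_prod_of_subset_of_one_le (subset_univ _) (fun i _ => Nat.cast_nonneg _)
      fun i _ _ => Nat.one_le_cast.2 (Nat.factorial_pos _)
  have hfib : X.card = ∑ a ∈ U, (univ.filter fun x => f x = Sum.inl a).card := by
    rw [← card_biUnion]
    · congr 1
      ext x
      simp only [mem_biUnion, mem_filter, mem_univ, true_and, hf]
      by_cases hx : x ∈ X
      · simp [hx, hparU x hx]
      · simp [hx]
    · intro a _ b _ hab
      exact disjoint_left.2 fun x h1 h2 => hab (Sum.inl_injective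
        ((mem_filter.1 h1).2.symm.trans (mem_filter.1 h2).2))
  have hk := h.log_hyp (prod_pos fun a _ => Nat.cast_pos.2 (Nat.factorial_pos _))
    (hprod.trans hΓle)
  rw [Real.log_prod fun a _ => Nat.cast_ne_zero.2 (Nat.factorial_ne_zero _)] at hk
  have hlow : (X.card : ℝ) * (2 + Real.log A) - U.card * (8 * A)
      ≤ ∑ a ∈ U, Real.log ((univ.filter fun x => f x = Sum.inl a).card.factorial : ℝ) := by
    refine le_trans (le_of_eq ?_) (sum_le_sum fun a _ => log_factorial_ge hA _)
    rw [sum_sub_distrib, ← sum_mul, sum_const, nsmul_eq_mul, hfib, Nat.cast_sum]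
  have hu' : (U.card : ℝ) ≤ r + 1 := by exact_mod_cast hu
  push_cast at hk
  have hX9 : (X.card : ℝ) ≤ Real.log n + 10 * A * r := by
    have h1 : ((U.card : ℝ) - r) * Real.log n ≤ Real.log n := by nlinarith
    have h2 : (U.card : ℝ) * (8 * A) ≤ 16 * A * r := by nlinarith
    have h3 : Real.log A ≤ A := le_trans (Real.log_le_sub_one_of_pos hA) (by linarith)
    have h4 : (r : ℝ) * Real.log A ≤ A * r := by nlinarith
    have h5 : Real.log 2 ≤ A * r := by nlinarith [Real.log_two_lt_d9, h.hA]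
    linarith
  have hall : (1 : ℝ) ≤ 2 * (n : ℝ) ^ (U ∪ X).card * q ^ (S ∪ bd EH S).card := by
    refine h.trivial_hyp (union_subset hSE fun e he => (mem_sdiff.1 (mem_filter.1 he).1).1)
      fun a ha => ?_
    by_cases haU : a ∈ U
    · exact mem_union_left _ haU
    · rw [verts_union] at ha
      exact mem_union_right _ (mem_sdiff.2 ⟨(mem_union.1 ha).resolve_left haU, haU⟩)
  have hd : Disjoint S (bd EH S) := disjoint_left.2 fun e he he' =>
    (mem_sdiff.1 (mem_filter.1 he').1).2 he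
  rw [hUX, card_union_of_disjoint hd] at hall
  have hm := h.log_hyp one_pos hall
  rw [Real.log_one] at hm
  push_cast at hm
  set m := ((bd EH S).card : ℝ) with hm'
  have h6 : (r + m) * Real.log n ≤ 2 * ((2 + r + X.card : ℝ) * Real.log n) := by
    have h1 : (r + m) * (2 * Real.log A) ≤ (r + m) * Real.log n :=
      mul_le_mul_of_nonneg_left hAn (by positivity)
    have h2 : (U.card : ℝ) * Real.log n ≤ (r + 1) * Real.log n :=
      mul_le_mul_of_nonneg_right hu' hl.le
    linarith
  have h7 : r + m ≤ 2 * (2 + r + X.card : ℝ) := by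
    rw [← mul_assoc] at h6
    exact le_of_mul_le_mul_right h6 hl
  have hAr : 3 * (r : ℝ) ≤ A * r := mul_le_mul_of_nonneg_right h.hA (by linarith)
  linarith

end Vale.Agent.P064.Linear
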