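import Mathlib

/-! Connected edge sets, their vertices and their edge boundaries. -/

namespace Vale.Agent.P064.Linear

open Finset

set_option linter.unusedSectionVars false

variable {V W : Type} [DecidableEq V] [DecidableEq W]

/-- The vertices covered by a set of edges. -/
def verts (S : Finset (Sym2 V)) : Finset V := S.biUnion fun e => e.toFinset

/-- Connectedness of a set of edges. -/
def EConn (S : Finset (Sym2 V)) : Prop :=
  S.Nonempty ∧ ∀ T ⊆ S, T.Nonempty → T ≠ S → ∃ a, a ∈ verts T ∧ a ∈ verts (S \ T)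

/-- The edges outside a set that meet its vertices. -/
def bd (EH S : Finset (Sym2 V)) : Finset (Sym2 V) :=
  (EH \ S).filter fun e => ∃ a ∈ verts S, a ∈ e

lemma mem_verts {S : Finset (Sym2 V)} {a : V} : a ∈ verts S ↔ ∃ e ∈ S, a ∈ e := by
  simp [verts, Sym2.mem_toFinset]

lemma verts_mono {S T : Finset (Sym2 V)} (h : S ⊆ T) : verts S ⊆ verts T :=
  biUnion_subset_biUnion_of_subset_left _ h

lemma verts_union (S T : Finset (Sym2 V)) : verts (S ∪ T) = verts S ∪ verts T :=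
  union_biUnion

lemma card_toFinset_le (e : Sym2 V) : e.toFinset.card ≤ 2 := by
  rw [Sym2.card_toFinset]; split_ifs <;> omega

/-- A connected set of edges covers at most one more vertex than it has edges. -/
lemma card_verts_le {S : Finset (Sym2 V)} (hS : EConn S) : (verts S).card ≤ S.card + 1 := by
  classical
  set fam := S.powerset.filter fun T => T.Nonempty ∧ (verts T).card ≤ T.card + 1 with hfam
  have hne : fam.Nonempty := by
    obtain ⟨e, he⟩ := hS.1
    refine ⟨{e}, mem_filter.2 ⟨mem_powerset.2 (singleton_subset_iff.2 he), singleton_nonempty e, ?_⟩⟩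
    simpa [verts] using card_toFinset_le e
  obtain ⟨T, hT, hmax⟩ := exists_max_image fam Finset.card hne
  obtain ⟨hTS, hTne, hTc⟩ := mem_filter.1 hT
  rw [mem_powerset] at hTS
  by_cases h : T = S
  · rwa [h] at hTc
  exfalso
  obtain ⟨a, ha, ha'⟩ := hS.2 T hTS hTne h
  obtain ⟨f, hf, haf⟩ := mem_verts.1 ha'
  obtain ⟨hfS, hfT⟩ := mem_sdiff.1 hf
  have hv : (verts (insert f T)).card ≤ (insert f T).card + 1 := by
    have h1 : verts (insert f T) = f.toFinset ∪ verts T := biUnion_insert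
    have h2 : 0 < (f.toFinset ∩ verts T).card :=
      card_pos.2 ⟨a, mem_inter.2 ⟨Sym2.mem_toFinset.2 haf, ha⟩⟩
    have h3 := card_union_add_card_inter f.toFinset (verts T)
    have h4 := card_toFinset_le f
    rw [h1, card_insert_of_notMem hfT]
    omega
  have := hmax (insert f T) (mem_filter.2 ⟨mem_powerset.2 (insert_subset hfS hTS),
    insert_nonempty f T, hv⟩)
  rw [card_insert_of_notMem hfT] at this
  omega

lemma verts_image (g : V → W) (S : Finset (Sym2 V)) :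
    verts (S.image (Sym2.map g)) = (verts S).image g := by
  ext b
  simp only [mem_verts, mem_image]
  constructor
  · rintro ⟨_, ⟨e, he, rfl⟩, hb⟩
    obtain ⟨a, ha, rfl⟩ := Sym2.mem_map.1 hb
    exact ⟨a, ⟨e, he, ha⟩, rfl⟩
  · rintro ⟨a, ⟨e, he, ha⟩, rfl⟩
    exact ⟨_, ⟨e, he, rfl⟩, Sym2.mem_map.2 ⟨a, ha, rfl⟩⟩

/-- Images of connected sets of edges are connected. -/
lemma EConn.image {S : Finset (Sym2 V)} (hS : EConn S) (g : V → W) :
    EConn (S.image (Sym2.map g)) := by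
  refine ⟨hS.1.image _, fun T hT hTne hTS => ?_⟩
  set T' := S.filter fun e => Sym2.map g e ∈ T with hT'
  have h1 : T'.Nonempty := by
    obtain ⟨b, hb⟩ := hTne
    obtain ⟨e, he, rfl⟩ := mem_image.1 (hT hb)
    exact ⟨e, mem_filter.2 ⟨he, hb⟩⟩
  have h2 : T' ≠ S := fun h => hTS (subset_antisymm hT fun b hb => by
    obtain ⟨e, he, rfl⟩ := mem_image.1 hb
    rw [← h] at he
    exact (mem_filter.1 he).2)
  obtain ⟨a, ha, ha'⟩ := hS.2 T' (filter_subset _ _) h1 h2
  obtain ⟨e, he, hae⟩ := mem_verts.1 ha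
  obtain ⟨f, hf, haf⟩ := mem_verts.1 ha'
  obtain ⟨hfS, hfT⟩ := mem_sdiff.1 hf
  refine ⟨g a, mem_verts.2 ⟨_, (mem_filter.1 he).2, Sym2.mem_map.2 ⟨a, hae, rfl⟩⟩,
    mem_verts.2 ⟨Sym2.map g f, mem_sdiff.2 ⟨mem_image.2 ⟨f, hfS, rfl⟩,
      fun h => hfT (mem_filter.2 ⟨hfS, h⟩)⟩, Sym2.mem_map.2 ⟨a, haf, rfl⟩⟩⟩

lemma map_injOn_of_verts {g : V → W} {S : Finset (Sym2 V)} (hg : Set.InjOn g (verts S : Set V)) :
    Set.InjOn (Sym2.map g) (S : Set (Sym2 V)) := by
  intro e he e' he' h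
  have key : ∀ {e e' : Sym2 V}, e ∈ S → e' ∈ S → e.map g = e'.map g → ∀ a ∈ e, a ∈ e' := by
    intro e e' he he' h a ha
    obtain ⟨b, hb, hab⟩ := Sym2.mem_map.1 (h ▸ Sym2.mem_map.2 ⟨a, ha, rfl⟩ : g a ∈ e'.map g)
    have := hg (mem_coe.2 (mem_verts.2 ⟨e', he', hb⟩)) (mem_coe.2 (mem_verts.2 ⟨e, he, ha⟩)) hab
    rwa [← this]
  exact Sym2.ext fun a => ⟨key he he' h a, key he' he h.symm a⟩

end Vale.Agent.P064.Linear
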