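import Vale.Agent.P064.Linear.Conn
import Vale.Agent.P064.Tw.Base

/-! Edge sets in which no set of edges outnumbers its vertices have tree-width at most two. -/

namespace Vale.Agent.P064.Linear

open Finset

set_option linter.unusedSectionVars false

variable {V : Type} [DecidableEq V]

/-- No set of edges outnumbers the vertices it covers. -/
def Good (x : Finset (Sym2 V)) : Prop := ∀ E ⊆ x, E.card ≤ (verts E).card

/-- A smallest crowded set of edges is connected. -/
lemma exists_conn_of_not_good {x : Finset (Sym2 V)} (h : ¬ Good x) :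
    ∃ E ⊆ x, EConn E ∧ (verts E).card < E.card := by
  classical
  simp only [Good, not_forall, not_le] at h
  obtain ⟨E0, hE0, hb⟩ := h
  obtain ⟨E, hE, hmin⟩ := exists_min_image (x.powerset.filter fun E => (verts E).card < E.card)
    Finset.card ⟨E0, mem_filter.2 ⟨mem_powerset.2 hE0, hb⟩⟩
  obtain ⟨hEx, hbE⟩ := mem_filter.1 hE
  rw [mem_powerset] at hEx
  refine ⟨E, hEx, ⟨card_pos.1 (by omega), fun T hT hTne hTE => ?_⟩, hbE⟩
  by_contra hno
  simp only [not_exists, not_and] at hno
  have hsum : T.card + (E \ T).card = E.card := by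
    rw [card_sdiff_of_subset hT]
    have := card_le_card hT
    omega
  have hv : (verts T).card + (verts (E \ T)).card = (verts E).card := by
    rw [← card_union_of_disjoint (disjoint_left.2 fun a ha ha' => hno a ha ha'), ← verts_union,
      union_sdiff_of_subset hT]
  have hlt : T.card < E.card := card_lt_card (ssubset_of_subset_of_ne hT hTE)
  have hpos := hTne.card_pos
  have h1 : T.card ≤ (verts T).card := not_lt.1 fun hc => absurd
    (hmin T (mem_filter.2 ⟨mem_powerset.2 (hT.trans hEx), hc⟩)) (by omega)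
  have h2 : (E \ T).card ≤ (verts (E \ T)).card := not_lt.1 fun hc => absurd
    (hmin (E \ T) (mem_filter.2 ⟨mem_powerset.2 (sdiff_subset.trans hEx), hc⟩)) (by omega)
  omega

variable [Fintype V]

/-- The earlier neighbours of a vertex. -/
def back (G : Finset (Sym2 V)) (ord : V → ℕ) (w : V) : Finset V :=
  univ.filter fun a => s(a, w) ∈ G ∧ ord a < ord w

lemma exists_few (x : Finset (Sym2 V)) (s : Finset V) (hs : s.Nonempty) (hx : verts x ⊆ s)
    (hg : Good x) : ∃ z ∈ s, (x.filter fun e => z ∈ e).card ≤ 2 := by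
  by_contra hno
  simp only [not_exists, not_and, not_le] at hno
  have h1 : 3 * s.card ≤ ∑ z ∈ s, (x.filter fun e => z ∈ e).card := by
    rw [mul_comm, ← smul_eq_mul]
    exact card_nsmul_le_sum _ _ _ fun z hz => hno z hz
  have h2 : ∑ z ∈ s, (x.filter fun e => z ∈ e).card ≤ 2 * x.card := by
    simp only [card_filter]
    rw [sum_comm, mul_comm, ← smul_eq_mul]
    refine sum_le_card_nsmul _ _ _ fun e _ => ?_
    rw [← card_filter]
    exact le_trans (card_le_card (t := e.toFinset)
      fun a ha => Sym2.mem_toFinset.2 (mem_filter.1 ha).2) (card_toFinset_le e)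
  have h3 := hg x subset_rfl
  have h4 := card_le_card hx
  have h5 := hs.card_pos
  omega

/-- Good edge sets sit inside graphs built by adding vertices with at most two adjacent
earlier neighbours. -/
lemma exists_completion : ∀ (m : ℕ) (s : Finset V), s.card = m → ∀ x : Finset (Sym2 V),
    (∀ e ∈ x, ¬ e.IsDiag) → verts x ⊆ s → Good x →
    ∃ (G : Finset (Sym2 V)) (ord : V → ℕ), (∀ e ∈ G, ¬ e.IsDiag) ∧ verts G ⊆ s ∧ x ⊆ G ∧
      Set.InjOn ord (s : Set V) ∧ (∀ w ∈ s, ord w < m) ∧ ∀ w, (back G ord w).card ≤ 2 ∧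
        ∀ a ∈ back G ord w, ∀ b ∈ back G ord w, a ≠ b → s(a, b) ∈ G := by
  intro m
  induction m with
  | zero =>
    intro s hs x _ hxs _
    rw [card_eq_zero] at hs
    subst hs
    refine ⟨∅, fun _ => 0, by simp, by simp [verts], fun e he => ?_, by simp, by simp,
      fun w => by simp [back]⟩
    exact absurd (hxs (mem_verts.2 ⟨e, he, Sym2.out_fst_mem e⟩)) (notMem_empty _)
  | succ m ih =>
    intro s hs x hnd hxs hg
    obtain ⟨z, hz, hfew⟩ := exists_few x s (card_pos.1 (by omega)) hxs hg
    set xz := x.filter fun e => z ∈ e with hxz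
    set N := (s.erase z).filter fun a => s(a, z) ∈ x with hN
    have hedge : ∀ e ∈ xz, ∃ a ∈ N, e = s(a, z) := by
      intro e he
      obtain ⟨hex, hze⟩ := mem_filter.1 he
      obtain ⟨a, rfl⟩ := Sym2.mem_iff_exists.1 hze
      refine ⟨a, mem_filter.2 ⟨mem_erase.2 ⟨fun h => hnd _ hex (Sym2.mk_isDiag_iff.2 h.symm),
        hxs (mem_verts.2 ⟨_, hex, Sym2.mem_mk_right z a⟩)⟩, ?_⟩, Sym2.eq_swap⟩
      rwa [Sym2.eq_swap]
    have hNc : N.card ≤ 2 := by
      refine le_trans (card_le_card_of_injOn (fun a => s(a, z)) (fun a ha => ?_)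
        fun a _ b _ h => ?_) hfew
      · exact mem_filter.2 ⟨(mem_filter.1 ha).2, Sym2.mem_mk_right a z⟩
      · rcases Sym2.eq_iff.1 h with ⟨h, -⟩ | ⟨h1, h2⟩
        · exact h
        · exact h1.trans h2
    set J := N.sym2.filter fun e => ¬ e.IsDiag with hJ
    have hJdef : ∀ e ∈ J, ∃ a ∈ N, ∃ b ∈ N, a ≠ b ∧ e = s(a, b) := by
      intro e he
      induction e using Sym2.ind with
      | h a b =>
        obtain ⟨h1, h2⟩ := mem_filter.1 he
        rw [mk_mem_sym2_iff] at h1
        exact ⟨a, h1.1, b, h1.2, fun h => h2 (Sym2.mk_isDiag_iff.2 h), rfl⟩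
    set x' := (x \ xz) ∪ J with hx'
    have hxs' : verts x' ⊆ s.erase z := by
      intro a ha
      obtain ⟨e, he, hae⟩ := mem_verts.1 ha
      rcases mem_union.1 he with he | he
      · obtain ⟨hex, hez⟩ := mem_sdiff.1 he
        exact mem_erase.2 ⟨fun h => hez (mem_filter.2 ⟨hex, h ▸ hae⟩),
          hxs (mem_verts.2 ⟨e, hex, hae⟩)⟩
      · obtain ⟨b, hb, c, hc, -, rfl⟩ := hJdef e he
        rcases Sym2.mem_iff.1 hae with rfl | rfl
        · exact (mem_filter.1 hb).1
        · exact (mem_filter.1 hc).1
    have hg' : Good x' := by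
      intro E hE
      by_cases hsub : E ⊆ x
      · exact hg E hsub
      obtain ⟨f, hf, hfx⟩ := not_subset.1 hsub
      have hfJ : f ∈ J := (mem_union.1 (hE hf)).resolve_left fun h => hfx (mem_sdiff.1 h).1
      obtain ⟨a, ha, b, hb, hab, rfl⟩ := hJdef f hfJ
      have hN2 : N = {a, b} := (eq_of_subset_of_card_le
        (insert_subset ha (singleton_subset_iff.2 hb)) (by rw [card_pair hab]; exact hNc)).symm
      have honly : ∀ g ∈ E, g ≠ s(a, b) → g ∈ x \ xz := by
        intro g hg1 hne
        refine (mem_union.1 (hE hg1)).resolve_right fun hgJ => hne ?_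
        obtain ⟨c, hc, d, hd, hcd, rfl⟩ := hJdef g hgJ
        rw [hN2, mem_insert, mem_singleton] at hc hd
        rcases hc with rfl | rfl <;> rcases hd with rfl | rfl <;>
          first | exact absurd rfl hcd | rfl | exact Sym2.eq_swap
      set E' := E.erase s(a, b) ∪ {s(a, z), s(b, z)} with hE'
      have hE'x : E' ⊆ x := by
        intro g hg1
        rcases mem_union.1 hg1 with hg1 | hg1
        · exact (mem_sdiff.1 (honly g (mem_erase.1 hg1).2 (mem_erase.1 hg1).1)).1
        · rcases mem_insert.1 hg1 with rfl | hg1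
          · exact (mem_filter.1 ha).2
          · rw [mem_singleton.1 hg1]; exact (mem_filter.1 hb).2
      have hne2 : (s(a, z) : Sym2 V) ≠ s(b, z) := fun h => by
        rcases Sym2.eq_iff.1 h with ⟨h, -⟩ | ⟨h1, h2⟩
        · exact hab h
        · exact hab (h1.trans h2)
      have hdisj : Disjoint (E.erase s(a, b)) {s(a, z), s(b, z)} := disjoint_left.2 fun g h1 h2 => by
        obtain ⟨hgne, hgE⟩ := mem_erase.1 h1
        obtain ⟨hgx, hgn⟩ := mem_sdiff.1 (honly g hgE hgne)
        refine hgn (mem_filter.2 ⟨hgx, ?_⟩)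
        rcases mem_insert.1 h2 with rfl | h2
        · exact Sym2.mem_mk_right a z
        · rw [mem_singleton.1 h2]; exact Sym2.mem_mk_right b z
      have hc1 : E'.card = E.card + 1 := by
        rw [hE', card_union_of_disjoint hdisj, card_erase_of_mem hf, card_pair hne2]
        have := card_pos.2 ⟨_, hf⟩
        omega
      have hv : verts E' ⊆ insert z (verts E) := by
        intro c hc
        obtain ⟨g, hg1, hcg⟩ := mem_verts.1 hc
        rcases mem_union.1 hg1 with hg1 | hg1
        · exact mem_insert_of_mem (mem_verts.2 ⟨g, (mem_erase.1 hg1).2, hcg⟩)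
        · have hab' : c = z ∨ c ∈ (s(a, b) : Sym2 V) := by
            rcases mem_insert.1 hg1 with rfl | hg1
            · rcases Sym2.mem_iff.1 hcg with rfl | rfl
              · exact Or.inr (Sym2.mem_mk_left _ _)
              · exact Or.inl rfl
            · rw [mem_singleton.1 hg1] at hcg
              rcases Sym2.mem_iff.1 hcg with rfl | rfl
              · exact Or.inr (Sym2.mem_mk_right _ _)
              · exact Or.inl rfl
          rcases hab' with rfl | h
          · exact mem_insert_self _ _
          · exact mem_insert_of_mem (mem_verts.2 ⟨_, hf, h⟩)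
      have := hg E' hE'x
      have := card_le_card hv
      have := card_insert_le z (verts E)
      omega
    obtain ⟨G, ord, hG1, hG2, hG3, hinj, hlt, hback⟩ := ih (s.erase z)
      (by rw [card_erase_of_mem hz]; omega) x'
      (fun e he => (mem_union.1 he).elim (fun h => hnd e (mem_sdiff.1 h).1)
        fun h => (mem_filter.1 h).2) hxs' hg'
    set G' := G ∪ N.image (fun a => s(a, z)) with hG'
    set ord' := Function.update ord z m with hord'
    have hlts : ∀ w ∈ s, w ≠ z → ord w < m := fun w hw hne => hlt w (mem_erase.2 ⟨hne, hw⟩)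
    have hzG : ∀ g ∈ G, z ∉ g := fun g hg1 hzg =>
      (mem_erase.1 (hG2 (mem_verts.2 ⟨g, hg1, hzg⟩))).1 rfl
    refine ⟨G', ord', fun e he => ?_, fun a ha => ?_, fun e he => ?_, fun a ha b hb hab => ?_,
      fun w hw => ?_, fun w => ?_⟩
    · rcases mem_union.1 he with he | he
      · exact hG1 e he
      · obtain ⟨a, ha, rfl⟩ := mem_image.1 he
        exact fun h => (mem_erase.1 (mem_filter.1 ha).1).1 (Sym2.mk_isDiag_iff.1 h)
    · obtain ⟨e, he, hae⟩ := mem_verts.1 ha
      rcases mem_union.1 he with he | he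
      · exact mem_of_mem_erase (hG2 (mem_verts.2 ⟨e, he, hae⟩))
      · obtain ⟨b, hb, rfl⟩ := mem_image.1 he
        rcases Sym2.mem_iff.1 hae with rfl | rfl
        · exact mem_of_mem_erase (mem_filter.1 hb).1
        · exact hz
    · by_cases hze : e ∈ xz
      · obtain ⟨a, ha, rfl⟩ := hedge e hze
        exact mem_union_right _ (mem_image.2 ⟨a, ha, rfl⟩)
      · exact mem_union_left _ (hG3 (mem_union_left _ (mem_sdiff.2 ⟨he, hze⟩)))
    · by_cases ha' : a = z <;> by_cases hb' : b = z
      · exact ha'.trans hb'.symm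
      · rw [hord', ha', Function.update_self, Function.update_of_ne hb'] at hab
        have := hlts b hb hb'
        omega
      · rw [hord', hb', Function.update_self, Function.update_of_ne ha'] at hab
        have := hlts a ha ha'
        omega
      · rw [hord', Function.update_of_ne ha', Function.update_of_ne hb'] at hab
        exact hinj (mem_coe.2 (mem_erase.2 ⟨ha', ha⟩)) (mem_coe.2 (mem_erase.2 ⟨hb', hb⟩)) hab
    · by_cases hwz : w = z
      · rw [hord', hwz, Function.update_self]; omega
      · rw [hord', Function.update_of_ne hwz]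
        have := hlts w hw hwz
        omega
    · by_cases hwz : w = z
      · subst hwz
        have hsub : back G' ord' w ⊆ N := by
          intro a ha
          obtain ⟨hae, -⟩ := (mem_filter.1 ha).2
          rcases mem_union.1 hae with hae | hae
          · exact absurd (Sym2.mem_mk_right a w) (hzG _ hae)
          · obtain ⟨b, hb, hbe⟩ := mem_image.1 hae
            rcases Sym2.eq_iff.1 hbe with ⟨rfl, -⟩ | ⟨h1, h2⟩
            · exact hb
            · exact absurd h1 (mem_erase.1 (mem_filter.1 hb).1).1
        refine ⟨(card_le_card hsub).trans hNc, fun a ha b hb hab => mem_union_left _ (hG3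
          (mem_union_right _ (mem_filter.2 ⟨mk_mem_sym2_iff.2 ⟨hsub ha, hsub hb⟩, ?_⟩)))⟩
        exact fun h => hab (Sym2.mk_isDiag_iff.1 h)
      · have hsub : back G' ord' w ⊆ back G ord w := by
          intro a ha
          obtain ⟨hae, hao⟩ := (mem_filter.1 ha).2
          have haz : a ≠ z := by
            rintro rfl
            have hws : w ∈ s := by
              rcases mem_union.1 hae with h | h
              · exact mem_of_mem_erase (hG2 (mem_verts.2 ⟨_, h, Sym2.mem_mk_right a w⟩))
              · obtain ⟨b, hb, hbe⟩ := mem_image.1 h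
                rcases Sym2.eq_iff.1 hbe with ⟨-, h2⟩ | ⟨h1, -⟩
                · exact absurd h2.symm hwz
                · exact h1 ▸ mem_of_mem_erase (mem_filter.1 hb).1
            rw [hord', Function.update_self, Function.update_of_ne hwz] at hao
            have := hlts w hws hwz
            omega
          rw [hord', Function.update_of_ne hwz, Function.update_of_ne haz] at hao
          refine mem_filter.2 ⟨mem_univ _, (mem_union.1 hae).resolve_right fun h => ?_, hao⟩
          obtain ⟨b, hb, hbe⟩ := mem_image.1 h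
          rcases Sym2.eq_iff.1 hbe with ⟨-, h2⟩ | ⟨-, h2⟩
          · exact hwz h2.symm
          · exact haz h2.symm
        exact ⟨(card_le_card hsub).trans (hback w).1,
          fun a ha b hb hab => mem_union_left _ ((hback w).2 a (hsub ha) b (hsub hb) hab)⟩

/-- Good edge sets have tree-width at most two. -/
theorem good_width {v : ℕ} {x : Finset (Sym2 (Fin v))} (hnd : ∀ e ∈ x, ¬ e.IsDiag)
    (hg : Good x) : Tw.TreewidthLE 2 (SimpleGraph.fromEdgeSet (x : Set (Sym2 (Fin v)))) := by
  classical
  obtain ⟨G, ord, -, -, hxG, hinj, -, hback⟩ :=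
    exists_completion _ univ rfl x hnd (subset_univ _) hg
  refine ⟨SimpleGraph.fromEdgeSet (G : Set (Sym2 (Fin v))), ord,
    fun a b h => hinj (mem_coe.2 (mem_univ a)) (mem_coe.2 (mem_univ b)) h,
    SimpleGraph.fromEdgeSet_mono (coe_subset.2 hxG), fun z => ?_⟩
  have hmem : ∀ a, (SimpleGraph.fromEdgeSet (G : Set (Sym2 (Fin v)))).Adj a z ∧ ord a < ord z ↔
      a ∈ back G ord z := by
    intro a
    simp only [SimpleGraph.fromEdgeSet_adj, mem_coe, back, mem_filter, mem_univ, true_and]
    exact ⟨fun h => ⟨h.1.1, h.2⟩, fun h => ⟨⟨h.1, fun e => by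
      rw [e] at h; exact lt_irrefl _ h.2⟩, h.2⟩⟩
  refine ⟨?_, fun a b ha hao hb hbo hab => ?_⟩
  · simp only [hmem]
    rw [Set.ncard_eq_toFinset_card']
    simpa using (hback z).1
  · exact (SimpleGraph.fromEdgeSet_adj _).2
      ⟨(hback z).2 a ((hmem a).1 ⟨ha, hao⟩) b ((hmem b).1 ⟨hb, hbo⟩) hab, hab⟩

end Vale.Agent.P064.Linear
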