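import Vale.Agent.P064.Linear.Animals
import Vale.Agent.P064.Linear.Good
import Vale.Agent.P064.Tw.Count
import Vale.Agent.P064.Tw.Plumb

/-! Counting placements of a pattern in a host with `n q` at most `A`. -/

namespace Vale.Agent.P064.Linear

open Finset
open scoped Classical

set_option linter.unusedSectionVars false

variable {α V : Type} [Fintype α] [DecidableEq α] [Fintype V] [DecidableEq V]
  {n : ℕ} {q A : ℝ} {EH : Finset (Sym2 V)}

/-- The loss in the counting bound. -/
noncomputable def lin (A T : ℝ) : ℝ := 32 * cnum ^ 2 * T * A ^ 10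

lemma lin_ge {T : ℝ} (hA : 1 ≤ A) (hT : 1 ≤ T) : 2 * cnum * A ^ 7 ≤ lin A T ∧ T ≤ lin A T := by
  have hc := one_le_cnum
  have h1 : 1 ≤ A ^ 10 := one_le_pow₀ hA
  have h2 : A ^ 7 ≤ A ^ 10 := pow_le_pow_right₀ hA (by norm_num)
  have h3 : cnum ≤ cnum ^ 2 := le_self_pow₀ hc two_ne_zero
  constructor
  · calc 2 * cnum * A ^ 7 = 2 * cnum * 1 * A ^ 7 := by ring
      _ ≤ 32 * cnum ^ 2 * T * A ^ 10 := by gcongr; norm_num
  · calc T = 1 * 1 ^ 2 * T * 1 := by ring
      _ ≤ 32 * cnum ^ 2 * T * A ^ 10 := by gcongr; norm_num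

lemma image_mem_animals {v0 : V} {X : Finset α} {DF : Finset (Sym2 α)}
    (hP : Tw.IsPattern X DF) (hC : EConn DF) {g : α → V} (hg : g ∈ Tw.embs v0 EH X DF) :
    DF.image (Sym2.map g) ∈ animals EH DF.card := by
  obtain ⟨-, hinj, hmap⟩ := Tw.mem_embs.1 hg
  refine mem_filter.2 ⟨mem_powerset.2 (image_subset_iff.2 hmap), hC.image g,
    card_image_of_injOn (map_injOn_of_verts fun a ha b hb => ?_)⟩
  obtain ⟨e, he, hae⟩ := mem_verts.1 (mem_coe.1 ha)
  obtain ⟨e', he', hbe⟩ := mem_verts.1 (mem_coe.1 hb)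
  exact hinj a (hP.sub e he a hae) b (hP.sub e' he' b hbe)

lemma verts_pattern {X : Finset α} {DF : Finset (Sym2 α)} (hP : Tw.IsPattern X DF) :
    verts DF = X :=
  ext fun a => ⟨fun h => by
    obtain ⟨e, he, hae⟩ := mem_verts.1 h
    exact hP.sub e he a hae, fun h => mem_verts.2 (hP.cov a h)⟩

/-- The placements with one image are no more than the copies of that image. -/
lemma fibre_le (h : Host n q A EH) (v0 : V) {X : Finset α} {DF : Finset (Sym2 α)}
    (hP : Tw.IsPattern X DF) (S : Finset (Sym2 V)) :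
    (((Tw.embs v0 EH X DF).filter fun g => DF.image (Sym2.map g) = S).card : ℝ)
      ≤ 2 * (n : ℝ) ^ X.card * q ^ DF.card := by
  set F := (Tw.embs v0 EH X DF).filter fun g => DF.image (Sym2.map g) = S with hF
  rcases F.eq_empty_or_nonempty with h0 | ⟨g0, hg0⟩
  · rw [h0, card_empty, Nat.cast_zero]
    have := h.q0
    positivity
  obtain ⟨hg0e, hg0S⟩ := mem_filter.1 hg0
  obtain ⟨-, hinj0, hmap0⟩ := Tw.mem_embs.1 hg0e
  set U := X.image g0 with hU
  have hUS : verts S = U := by rw [← hg0S, verts_image, verts_pattern hP]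
  set τ := fun (g : α → V) (y : V) => if hy : ∃ a ∈ X, g0 a = y then g hy.choose else y with hτ
  have hτeq : ∀ (g : α → V), ∀ a ∈ X, τ g (g0 a) = g a := by
    intro g a ha
    have hy : ∃ b ∈ X, g0 b = g0 a := ⟨a, ha, rfl⟩
    simp only [hτ, dif_pos hy]
    rw [hinj0 _ hy.choose_spec.1 a ha hy.choose_spec.2]
  have hτout : ∀ (g : α → V) (y : V), y ∉ U → τ g y = y := fun g y hy => by
    simp only [hτ]
    exact dif_neg fun ⟨a, ha, he⟩ => hy (mem_image.2 ⟨a, ha, he⟩)
  have himg : ∀ g ∈ F, X.image g = U := fun g hg => by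
    rw [← hUS, ← (mem_filter.1 hg).2, verts_image, verts_pattern hP]
  have hτU : ∀ g ∈ F, ∀ y ∈ U, τ g y ∈ U := by
    intro g hg y hy
    obtain ⟨a, ha, rfl⟩ := mem_image.1 hy
    rw [hτeq g a ha, ← himg g hg]
    exact mem_image_of_mem g ha
  have hτbij : ∀ g ∈ F, Function.Bijective (τ g) := by
    intro g hg
    refine Finite.injective_iff_bijective.1 fun y y' he => ?_
    have hgi := (Tw.mem_embs.1 (mem_filter.1 hg).1).2.1
    by_cases hy : y ∈ U <;> by_cases hy' : y' ∈ U
    · obtain ⟨a, ha, rfl⟩ := mem_image.1 hy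
      obtain ⟨b, hb, rfl⟩ := mem_image.1 hy'
      rw [hτeq g a ha, hτeq g b hb] at he
      rw [hgi a ha b hb he]
    · exact absurd (by rw [← hτout g y' hy', ← he]; exact hτU g hg y hy) hy'
    · exact absurd (by rw [← hτout g y hy, he]; exact hτU g hg y' hy') hy
    · rwa [hτout g y hy, hτout g y' hy'] at he
  set Φ : {g // g ∈ F} → Equiv.Perm V := fun g => Equiv.ofBijective (τ g.1) (hτbij g.1 g.2) with hΦ
  have hΦinj : Function.Injective Φ := by
    rintro ⟨g, hg⟩ ⟨g', hg'⟩ he
    refine Subtype.ext (funext fun a => ?_)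
    by_cases ha : a ∈ X
    · have e1 : τ g (g0 a) = τ g' (g0 a) := Equiv.congr_fun he (g0 a)
      rwa [hτeq g a ha, hτeq g' a ha] at e1
    · show g a = g' a
      rw [(Tw.mem_embs.1 (mem_filter.1 hg).1).1 a ha, (Tw.mem_embs.1 (mem_filter.1 hg').1).1 a ha]
  have hle := h.hyp U S (fun e he => by
      rw [← hg0S] at he
      obtain ⟨f, hf, rfl⟩ := mem_image.1 he
      exact hmap0 f hf)
    (fun e he a ha => hUS ▸ mem_verts.2 ⟨e, he, ha⟩) (F.attach.image Φ) (fun σ hσ => by
      obtain ⟨⟨g, hg⟩, -, rfl⟩ := mem_image.1 hσ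
      refine ⟨hτU g hg, fun e he => ?_⟩
      rw [← hg0S] at he
      obtain ⟨f, hf, rfl⟩ := mem_image.1 he
      rw [← (mem_filter.1 hg).2, Sym2.map_map]
      exact mem_image.2 ⟨f, hf,
        Sym2.map_congr fun a ha => (hτeq g a (hP.sub f hf a ha)).symm⟩)
    (fun σ hσ σ' hσ' hag => Equiv.ext fun y => by
      by_cases hy : y ∈ U
      · exact hag y hy
      · obtain ⟨⟨g, hg⟩, -, rfl⟩ := mem_image.1 hσ
        obtain ⟨⟨g', hg'⟩, -, rfl⟩ := mem_image.1 hσ'
        exact (hτout g y hy).trans (hτout g' y hy).symm)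
  rw [card_image_of_injective _ hΦinj, card_attach] at hle
  rw [hU, card_image_of_injOn fun a ha b hb => hinj0 a ha b hb] at hle
  have hS : S.card = DF.card := by
    rw [← hg0S, card_image_of_injOn]
    refine map_injOn_of_verts fun a ha b hb => ?_
    rw [verts_pattern hP] at ha hb
    exact hinj0 a ha b hb
  rwa [hS] at hle

/-- A small crowded connected edge set forces `n` to be small. -/
lemma crowded_small (h : Host n q A EH) {E : Finset (Sym2 V)} (hE : E ⊆ EH)
    (hb : (verts E).card < E.card) : (n : ℝ) ≤ 2 * A ^ E.card := by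
  obtain ⟨hn, hA, -⟩ := h.pos
  have hn1 : (1 : ℝ) ≤ n := by exact_mod_cast le_trans one_le_two h.nn
  have h1 := h.trivial_hyp hE subset_rfl
  have h2 := mul_le_mul_of_nonneg_left h1 hn.le
  rw [mul_one] at h2
  have h3 : (n : ℝ) ^ ((verts E).card + 1) ≤ (n : ℝ) ^ E.card := pow_le_pow_right₀ hn1 hb
  calc (n : ℝ) ≤ 2 * (n : ℝ) ^ ((verts E).card + 1) * q ^ E.card := by
        rw [pow_succ]; linarith
    _ ≤ 2 * (n : ℝ) ^ E.card * q ^ E.card := by have := h.q0; gcongr
    _ = 2 * ((n : ℝ) * q) ^ E.card := by rw [mul_pow]; ring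
    _ ≤ _ := by have := h.q0; gcongr; exact h.hnq

/-- A connected pattern has few placements when `n` is small against it. -/
lemma conn_large (h : Host n q A EH) (v0 : V) {X : Finset α} {DF : Finset (Sym2 α)}
    (hP : Tw.IsPattern X DF) (hC : EConn DF) (hsmall : (n : ℝ) ≤ 2 * A ^ (2 * DF.card)) :
    ((Tw.embs v0 EH X DF).card : ℝ) ≤ (n : ℝ) ^ X.card * (2 * cnum * A ^ 7 * q) ^ DF.card := by
  obtain ⟨hn, hA, -⟩ := h.pos
  have hA3 := h.hA
  have hc := one_le_cnum
  have hq := h.q0
  set r := DF.card with hr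
  have hr1 : 1 ≤ r := hC.1.card_pos
  have hn3 : (n : ℝ) ≤ A ^ (3 * r) := by
    refine hsmall.trans ?_
    rw [show 3 * r = r + 2 * r by ring, pow_add A r (2 * r)]
    gcongr
    exact le_trans (by linarith) (le_self_pow₀ (by linarith) (by omega))
  have hn6 : (n : ℝ) ^ 2 ≤ A ^ (6 * r) := by
    calc (n : ℝ) ^ 2 ≤ (A ^ (3 * r)) ^ 2 := pow_le_pow_left₀ hn.le hn3 2
      _ = _ := by rw [← pow_mul]; ring_nf
  rw [card_eq_sum_card_fiberwise (t := animals EH r) (f := fun g => DF.image (Sym2.map g))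
    fun g hg => image_mem_animals hP hC hg, Nat.cast_sum]
  calc ∑ S ∈ animals EH r,
        (((Tw.embs v0 EH X DF).filter fun g => DF.image (Sym2.map g) = S).card : ℝ)
      ≤ ∑ _S ∈ animals EH r, 2 * (n : ℝ) ^ X.card * q ^ r :=
        sum_le_sum fun S _ => fibre_le h v0 hP S
    _ ≤ (n : ℝ) ^ 2 * (cnum * A) ^ r * (2 * (n : ℝ) ^ X.card * q ^ r) := by
        rw [sum_const, nsmul_eq_mul]
        exact mul_le_mul_of_nonneg_right (animals_le h r) (by positivity)
    _ ≤ A ^ (6 * r) * (cnum * A) ^ r * (2 ^ r * (n : ℝ) ^ X.card * q ^ r) := by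
        gcongr
        exact le_self_pow₀ one_le_two (by omega)
    _ = _ := by ring

/-- A connected pattern that is small against `n` keeps, after a random thinning of the host,
its placements inside an edge set of tree-width two. -/
lemma conn_small (h : Host n q A EH) (v0 : V) {T : ℝ} (hT : 1 ≤ T)
    (hgood : ∀ x ⊆ EH, Good x → ∀ (X : Finset α) (DF : Finset (Sym2 α)), Tw.IsPattern X DF →
      ((Tw.embs v0 x X DF).card : ℝ) ≤ (n : ℝ) ^ X.card * (T * q) ^ DF.card)
    {X : Finset α} {DF : Finset (Sym2 α)}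
    (hP : Tw.IsPattern X DF) (hC : EConn DF) (hbig : 2 * A ^ (2 * DF.card) < (n : ℝ)) :
    ((Tw.embs v0 EH X DF).card : ℝ) ≤ (n : ℝ) ^ X.card * (lin A T * q) ^ DF.card := by
  obtain ⟨hn, hA, -⟩ := h.pos
  have hA3 := h.hA
  have hc := one_le_cnum
  have hq := h.q0
  set r := DF.card with hr
  have hr1 : 1 ≤ r := hC.1.card_pos
  set D : ℝ := cnum * A ^ 5 with hD
  have hD1 : 1 ≤ D := one_le_mul_of_one_le_of_one_le hc (one_le_pow₀ (by linarith))
  set s : ℝ := 1 / (4 * D) with hs
  have hs0 : 0 < s := by positivity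
  have hs1 : s ≤ 1 := by rw [hs, div_le_one (by positivity)]; linarith
  set p : ℝ := s ^ 2 with hp
  have hp0 : 0 < p := by positivity
  have hp1 : p ≤ 1 := pow_le_one₀ hs0.le hs1
  set 𝓑 := EH.powerset.filter fun E => EConn E ∧ (verts E).card < E.card with h𝓑
  have hsize : ∀ E ∈ 𝓑, 2 * r < E.card ∧ (n : ℝ) ≤ 2 * A ^ E.card := by
    intro E hE
    obtain ⟨hEH, -, hb⟩ := mem_filter.1 hE
    have h1 := crowded_small h (mem_powerset.1 hEH) hb
    refine ⟨not_le.1 fun hle => ?_, h1⟩
    have := pow_le_pow_right₀ (show (1 : ℝ) ≤ A by linarith) hle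
    linarith
  have hcount : ∀ e ∈ Ico 1 (EH.card + 1),
      ((𝓑.filter fun E => E.card = e).card : ℝ) * s ^ e ≤ (1 / 4) ^ e := by
    intro e he
    obtain ⟨he1, -⟩ := mem_Ico.1 he
    rcases (𝓑.filter fun E => E.card = e).eq_empty_or_nonempty with h0 | ⟨E, hE⟩
    · rw [h0, card_empty, Nat.cast_zero, zero_mul]; positivity
    obtain ⟨hE, hEc⟩ := mem_filter.1 hE
    have hne : (n : ℝ) ≤ A ^ (2 * e) := by
      refine (hEc ▸ (hsize E hE).2).trans ?_
      rw [two_mul e, pow_add A e e]
      gcongr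
      exact le_trans (by linarith) (le_self_pow₀ (by linarith) (by omega))
    have hne2 : (n : ℝ) ^ 2 ≤ A ^ (4 * e) := by
      calc (n : ℝ) ^ 2 ≤ (A ^ (2 * e)) ^ 2 := pow_le_pow_left₀ hn.le hne 2
        _ = _ := by rw [← pow_mul]; ring_nf
    calc ((𝓑.filter fun E => E.card = e).card : ℝ) * s ^ e
        ≤ ((animals EH e).card : ℝ) * s ^ e := by
          gcongr
          intro E hE
          obtain ⟨hE, hEc⟩ := mem_filter.1 hE
          obtain ⟨hEH, hEC, -⟩ := mem_filter.1 hE
          exact mem_filter.2 ⟨hEH, hEC, hEc⟩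
      _ ≤ A ^ (4 * e) * (cnum * A) ^ e * s ^ e := by
          refine mul_le_mul_of_nonneg_right ((animals_le h e).trans ?_) (by positivity)
          gcongr
      _ = (D * s) ^ e := by
          rw [hD]; ring
      _ = _ := by
          congr 1
          rw [hs]; field_simp
  have hBad : ∀ S : Finset (Sym2 V), S ⊆ EH →
      ∑ E ∈ 𝓑, ∑ x ∈ EH.powerset.filter (fun x => S ∪ E ⊆ x), bw EH p x ≤ p ^ r * (1 / 2) := by
    intro S hS
    calc ∑ E ∈ 𝓑, ∑ x ∈ EH.powerset.filter (fun x => S ∪ E ⊆ x), bw EH p x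
        ≤ ∑ E ∈ 𝓑, p ^ r * s ^ E.card := by
          refine sum_le_sum fun E hE => ?_
          have hEH := mem_powerset.1 (mem_filter.1 hE).1
          have hsb := sum_bw_filter (S := S ∪ E) (B := ∅) p (union_subset hS hEH) (empty_subset EH)
            (disjoint_empty_right _)
          simp only [disjoint_empty_left, and_true, card_empty, pow_zero, mul_one] at hsb
          rw [hsb]
          have h1 : E.card ≤ (S ∪ E).card := card_le_card subset_union_right
          refine (pow_le_pow_of_le_one hp0.le hp1 h1).trans ?_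
          rw [hp, ← pow_mul, ← pow_mul, two_mul E.card, pow_add]
          exact mul_le_mul_of_nonneg_right
            (pow_le_pow_of_le_one hs0.le hs1 (hsize E hE).1.le) (by positivity)
      _ = p ^ r * ∑ e ∈ Ico 1 (EH.card + 1), ((𝓑.filter fun E => E.card = e).card : ℝ) * s ^ e := by
          rw [← mul_sum]
          congr 1
          have hmaps : ∀ E ∈ 𝓑, E.card ∈ Ico 1 (EH.card + 1) := by
            intro E hE
            have := (hsize E hE).1
            have := card_le_card (mem_powerset.1 (mem_filter.1 hE).1)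
            rw [mem_Ico]
            omega
          rw [← sum_fiberwise_of_maps_to hmaps (fun E => s ^ E.card)]
          refine sum_congr rfl fun e _ => ?_
          rw [sum_congr rfl fun E hE => by rw [(mem_filter.1 hE).2], sum_const, nsmul_eq_mul]
      _ ≤ p ^ r * ∑ e ∈ Ico 1 (EH.card + 1), (1 / 4 : ℝ) ^ e :=
          mul_le_mul_of_nonneg_left (sum_le_sum hcount) (by positivity)
      _ ≤ _ := by
          refine mul_le_mul_of_nonneg_left (le_trans (geom_sum_Ico_le_of_lt_one (by norm_num)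
            (by norm_num)) ?_) (by positivity)
          norm_num
  have hone : ∀ g ∈ Tw.embs v0 EH X DF, p ^ r / 2 ≤ ∑ x ∈ EH.powerset,
      if DF.image (Sym2.map g) ⊆ x ∧ Good x then bw EH p x else 0 := by
    intro g hg
    set S := DF.image (Sym2.map g) with hSdef
    have hS := mem_filter.1 (image_mem_animals hP hC hg)
    have hSr : S.card = r := hS.2.2
    have hSE : S ⊆ EH := mem_powerset.1 hS.1
    have hp_eq : ∑ x ∈ EH.powerset.filter (fun x => S ⊆ x), bw EH p x = p ^ r := by
      have := sum_bw_filter (S := S) (B := ∅) p hSE (empty_subset EH) (disjoint_empty_right _)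
      simpa [hSr] using this
    have hsplit : ∑ x ∈ EH.powerset.filter (fun x => S ⊆ x), bw EH p x ≤
        (∑ x ∈ EH.powerset, if S ⊆ x ∧ Good x then bw EH p x else 0) +
          ∑ E ∈ 𝓑, ∑ x ∈ EH.powerset.filter (fun x => S ∪ E ⊆ x), bw EH p x := by
      simp only [sum_filter]
      rw [sum_comm (s := 𝓑), ← sum_add_distrib]
      refine sum_le_sum fun x hx => ?_
      have hw := bw_nonneg EH hp0.le hp1 x
      have hnn : 0 ≤ ∑ E ∈ 𝓑, if S ∪ E ⊆ x then bw EH p x else 0 :=
        sum_nonneg fun E _ => by split_ifs <;> [exact hw; exact le_rfl]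
      by_cases hSx : S ⊆ x
      swap
      · rw [if_neg hSx, if_neg fun h' => hSx h'.1, zero_add]; exact hnn
      by_cases hg' : Good x
      · rw [if_pos hSx, if_pos ⟨hSx, hg'⟩]; linarith
      obtain ⟨E, hEx, hEC, hEb⟩ := exists_conn_of_not_good hg'
      rw [if_pos hSx, if_neg fun h' => hg' h'.2, zero_add]
      refine le_trans (le_of_eq (if_pos (union_subset hSx hEx)).symm)
        (single_le_sum (f := fun E => if S ∪ E ⊆ x then bw EH p x else 0)
          (fun E _ => by split_ifs <;> [exact hw; exact le_rfl])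
          (mem_filter.2 ⟨mem_powerset.2 (hEx.trans (mem_powerset.1 hx)), hEC, hEb⟩))
    have := hBad S hSE
    linarith
  have hmain : ((Tw.embs v0 EH X DF).card : ℝ) * (p ^ r / 2)
      ≤ (n : ℝ) ^ X.card * (T * q) ^ r := by
    rw [← nsmul_eq_mul, ← sum_const]
    refine (sum_le_sum hone).trans ?_
    rw [sum_comm, ← mul_one ((n : ℝ) ^ X.card * (T * q) ^ r), ← sum_bw EH p, mul_sum]
    refine sum_le_sum fun x hx => ?_
    have hw := bw_nonneg EH hp0.le hp1 x
    by_cases hg' : Good x
    · rw [← sum_filter, sum_const, nsmul_eq_mul]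
      refine mul_le_mul_of_nonneg_right (le_trans (Nat.cast_le.2 (card_le_card fun g hg => ?_))
        (hgood x (mem_powerset.1 hx) hg' X DF hP)) hw
      obtain ⟨hge, hgx, -⟩ := mem_filter.1 hg
      obtain ⟨h1, h2, -⟩ := Tw.mem_embs.1 hge
      exact Tw.mem_embs.2 ⟨h1, h2, fun e he => hgx (mem_image.2 ⟨e, he, rfl⟩)⟩
    · simp only [hg', and_false, if_false, sum_const_zero]
      positivity
  rw [← le_div_iff₀ (by positivity)] at hmain
  refine hmain.trans ?_
  rw [div_le_iff₀ (by positivity), mul_assoc]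
  refine mul_le_mul_of_nonneg_left ?_ (by positivity)
  have e : lin A T * q * p = 2 * (T * q) := by
    rw [lin, hp, hs, hD]; field_simp; ring
  calc (T * q) ^ r = (T * q) ^ r * 1 := (mul_one _).symm
    _ ≤ (T * q) ^ r * (2 ^ r / 2) := by
        refine mul_le_mul_of_nonneg_left ?_ (by positivity)
        rw [le_div_iff₀ two_pos, one_mul]
        exact le_self_pow₀ one_le_two (by omega)
    _ = (lin A T * q * p) ^ r / 2 := by rw [e, mul_pow 2]; ring
    _ = _ := by rw [mul_pow (lin A T * q)]; ring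

/-- The bound for all patterns. -/
theorem emb_all (h : Host n q A EH) (v0 : V) {T : ℝ} (hT : 1 ≤ T)
    (hgood : ∀ x ⊆ EH, Good x → ∀ (X : Finset α) (DF : Finset (Sym2 α)), Tw.IsPattern X DF →
      ((Tw.embs v0 x X DF).card : ℝ) ≤ (n : ℝ) ^ X.card * (T * q) ^ DF.card) :
    ∀ (m : ℕ) (X : Finset α) (DF : Finset (Sym2 α)), DF.card = m → Tw.IsPattern X DF →
      ((Tw.embs v0 EH X DF).card : ℝ) ≤ (n : ℝ) ^ X.card * (lin A T * q) ^ DF.card := by
  have hA3 := h.hA
  have hq := h.q0
  obtain ⟨hlin, -⟩ := lin_ge (A := A) (by linarith) hT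
  intro m
  induction m using Nat.strong_induction_on with
  | _ m ih =>
    intro X DF hm hP
    rcases DF.eq_empty_or_nonempty with rfl | hne
    · have hX : X = ∅ := eq_empty_of_forall_notMem fun a ha => by
        obtain ⟨e, he, -⟩ := hP.cov a ha
        exact notMem_empty e he
      subst hX
      simp only [card_empty, pow_zero, mul_one, Nat.cast_le_one]
      refine card_le_one.2 fun g hg g' hg' => funext fun a => ?_
      rw [(Tw.mem_embs.1 hg).1 a (notMem_empty a), (Tw.mem_embs.1 hg').1 a (notMem_empty a)]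
    by_cases hC : EConn DF
    · by_cases hsz : (n : ℝ) ≤ 2 * A ^ (2 * DF.card)
      · refine (conn_large h v0 hP hC hsz).trans ?_
        gcongr
        have := one_le_cnum
        positivity
      · exact conn_small h v0 hT hgood hP hC (not_le.1 hsz)
    simp only [EConn, hne, true_and, not_forall, not_exists, not_and] at hC
    obtain ⟨D1, hD1, hD1ne, hD1DF, hsep⟩ := hC
    set D2 := DF \ D1 with hD2
    have hd2ne : D2.Nonempty :=
      sdiff_nonempty.2 fun hsub => hD1DF (subset_antisymm hD1 hsub)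
    have hsum : D1.card + D2.card = DF.card := by
      rw [hD2, card_sdiff_of_subset hD1]
      have := card_le_card hD1
      omega
    have hp1 := hD1ne.card_pos
    have hp2 := hd2ne.card_pos
    have hpat : ∀ D ⊆ DF, Tw.IsPattern (verts D) D := fun D hD =>
      ⟨fun e he => hP.ndF e (hD he), fun e he a ha => mem_verts.2 ⟨e, he, ha⟩,
        fun a ha => mem_verts.1 ha⟩
    have hX : X.card = (verts D1).card + (verts D2).card := by
      rw [← card_union_of_disjoint (disjoint_left.2 fun a ha ha' => hsep a ha ha'), ← verts_union,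
        hD2, union_sdiff_of_subset hD1, verts_pattern hP]
    have hsplit : (Tw.embs v0 EH X DF).card ≤
        (Tw.embs v0 EH (verts D1) D1).card * (Tw.embs v0 EH (verts D2) D2).card := by
      rw [← card_product]
      have hsub : ∀ D ⊆ DF, ∀ g ∈ Tw.embs v0 EH X DF,
          Tw.res v0 (verts D) g ∈ Tw.embs v0 EH (verts D) D := by
        intro D hD g hg
        obtain ⟨-, hinj, hmap⟩ := Tw.mem_embs.1 hg
        have hDX : verts D ⊆ X := verts_pattern hP ▸ verts_mono hD
        refine Tw.mem_embs.2 ⟨fun a ha => if_neg ha, fun a ha b hb hab => ?_, fun e he => ?_⟩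
        · simp only [Tw.res, if_pos ha, if_pos hb] at hab
          exact hinj a (hDX ha) b (hDX hb) hab
        · rw [Sym2.map_congr (f := Tw.res v0 (verts D) g) (g := g)
            fun a ha => if_pos (mem_verts.2 ⟨e, he, ha⟩)]
          exact hmap e (hD he)
      refine card_le_card_of_injOn
        (fun g => (Tw.res v0 (verts D1) g, Tw.res v0 (verts D2) g))
        (fun g hg => mem_product.2 ⟨hsub D1 hD1 g hg, hsub D2 sdiff_subset g hg⟩)
        fun g hg g' hg' he => funext fun a => ?_
      simp only [Prod.mk.injEq] at he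
      by_cases h1 : a ∈ verts D1
      · simpa [Tw.res, h1] using congrFun he.1 a
      by_cases h2 : a ∈ verts D2
      · simpa [Tw.res, h2] using congrFun he.2 a
      have haX : a ∉ X := by
        rw [← verts_pattern hP, ← union_sdiff_of_subset hD1, verts_union]
        exact fun h' => (mem_union.1 h').elim h1 h2
      rw [(Tw.mem_embs.1 hg).1 a haX, (Tw.mem_embs.1 hg').1 a haX]
    calc ((Tw.embs v0 EH X DF).card : ℝ)
        ≤ ((Tw.embs v0 EH (verts D1) D1).card : ℝ) * (Tw.embs v0 EH (verts D2) D2).card := by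
          exact_mod_cast hsplit
      _ ≤ (n : ℝ) ^ (verts D1).card * (lin A T * q) ^ D1.card *
            ((n : ℝ) ^ (verts D2).card * (lin A T * q) ^ D2.card) :=
          mul_le_mul (ih _ (by omega) _ _ rfl (hpat D1 hD1))
            (ih _ (by omega) _ _ rfl (hpat D2 sdiff_subset)) (Nat.cast_nonneg _)
            (by have := one_le_cnum; unfold lin; positivity)
      _ = _ := by rw [hX, ← hsum, pow_add, pow_add]; ring

end Vale.Agent.P064.Linear
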