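import Vale.Agent.P064.Linear.Count

/-! Both thresholds when `n p_E` is bounded. -/

namespace Vale.Agent.P064.Linear

open Finset
open scoped Classical

/-- The loss of the linear range is a fixed power of `1 + n p_E`. -/
lemma emb_linear {n v : ℕ} (hn : 2 ≤ n) (hv : v ≤ n) (H : SimpleGraph (Fin v)) (he : H ≠ ⊥)
    {A : ℝ} (hA : 3 ≤ A) (hnq : (n : ℝ) * pE n H ≤ A) (hA2 : A ^ 2 ≤ n)
    (hL : lin A (Tw.twLoss 2) * pE n H ≤ 1) (v0 : Fin v) (X : Finset (Fin n))
    (DF : Finset (Sym2 (Fin n))) (hP : Tw.IsPattern X DF) :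
    ((Tw.embs v0 H.edgeFinset X DF).card : ℝ) ≤
      (n : ℝ) ^ X.card * (lin A (Tw.twLoss 2) * pE n H) ^ DF.card := by
  obtain ⟨⟨hq0, hq1⟩, hyp⟩ := pE_spec hv H
  have hq := pE_pos hn hv H he
  set q := pE n H with hqdef
  have hnd : ∀ e ∈ H.edgeFinset, ¬ e.IsDiag := fun e he' =>
    H.not_isDiag_of_mem_edgeSet (SimpleGraph.mem_edgeFinset.1 he')
  have hH : Host n q A H.edgeFinset := ⟨hn, by simpa using hv, hq, hA, hnq, hA2, hnd,
    fun U E hE hU G hG hinj => aut_bound hq0 hq1 H hyp U E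
      (fun e he' => SimpleGraph.mem_edgeFinset.1 (hE he')) hU G hG hinj⟩
  have hT : (3 : ℝ) ≤ Tw.twLoss 2 := by norm_num [Tw.twLoss]
  refine emb_all hH v0 (by linarith) (fun x hx hgx X' DF' hP' => ?_) _ X DF rfl hP
  have hxnd : ∀ e ∈ x, ¬ e.IsDiag := fun e he' => hnd e (hx he')
  set H' : SimpleGraph (Fin v) := SimpleGraph.fromEdgeSet (x : Set (Sym2 (Fin v))) with hH'
  have hle : H' ≤ H := fun a b hab =>
    SimpleGraph.mem_edgeFinset.1 (hx (mem_coe.1 ((SimpleGraph.fromEdgeSet_adj _).1 hab).1))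
  have hyp' : ∀ F : H'.Subgraph, 1 / 2 ≤ expCopies n q F.coe := fun F =>
    hyp { verts := F.verts, Adj := F.Adj, adj_sub := fun h => hle (F.adj_sub h),
          edge_vert := F.edge_vert, symm := F.symm }
  have hqk : (((2 : ℕ) : ℝ) + 1) * q ≤ 1 := by
    refine le_trans (mul_le_mul_of_nonneg_right ?_ hq.le) hL
    have := (lin_ge (A := A) (by linarith) (T := Tw.twLoss 2) (by linarith)).2
    push_cast
    linarith
  obtain ⟨C, hC, hCk, hCn, hCq, hCE, hCv⟩ :=
    Tw.frame_of hn hv hq hqk H' hyp' (good_width hxnd hgx) v0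
  have hb := Tw.emb_le (C := C) hC hP'
  have hCx : C.EH = x := by
    rw [hCE]
    ext e
    simp only [SimpleGraph.edgeFinset, Set.mem_toFinset, hH', SimpleGraph.edgeSet_fromEdgeSet]
    exact ⟨fun h => h.1, fun h => ⟨h, hxnd e h⟩⟩
  rw [hCk, hCn, hCq, hCx, hCv] at hb
  exact hb

/-- A weak bound valid for every graph. -/
lemma weak_bound : ∃ K : ℝ, 0 ≤ K ∧ ∀ n v : ℕ, 2 ≤ n → v ≤ n → ∀ H : SimpleGraph (Fin v), H ≠ ⊥ →
    pc n H ≤ K * pE n H * Real.log n * Real.log n ∧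
      pETilde n H ≤ K * pE n H * Real.log n := by
  obtain ⟨K₁, hpc⟩ := pc_le
  obtain ⟨K₂, hpt⟩ := pETilde_le
  refine ⟨max (max K₁ K₂) 0, le_max_right _ _, fun n v hn hv H he => ?_⟩
  have hl : Real.log 2 ≤ Real.log n := Real.log_le_log two_pos (by exact_mod_cast hn)
  have hlt := Real.log_two_gt_d9
  have hp := (pE_spec hv H).1.1
  constructor
  · refine (hpc n v hn hv H he 1 zero_le_one le_rfl (Or.inl le_rfl) (1 + Real.log n) (Real.log n)
      (by linarith) le_rfl (by linarith) (Or.inl le_rfl)).trans ?_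
    rw [Real.rpow_one]
    gcongr
    exact (le_max_left _ _).trans (le_max_left _ _)
  · refine (hpt n v hn hv H he 1 zero_le_one le_rfl (Or.inl le_rfl) (1 + Real.log n) (Real.log n)
      (by linarith) le_rfl (by linarith) (Or.inl le_rfl)).trans ?_
    rw [Real.rpow_one]
    gcongr
    exact (le_max_right _ _).trans (le_max_left _ _)

/-- Both thresholds lose only a fixed power of `1 + n p_E`. -/
theorem linear_range : ∃ K : ℝ, 0 ≤ K ∧ ∀ n v : ℕ, 2 ≤ n → v ≤ n →
    ∀ H : SimpleGraph (Fin v), H ≠ ⊥ →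
      pc n H ≤ K * (1 + n * pE n H) ^ 10 * pE n H * Real.log n ∧
        pETilde n H ≤ K * (1 + n * pE n H) ^ 10 * pE n H := by
  obtain ⟨M, hM, hthr⟩ := Tw.thresholds_of_emb
  obtain ⟨K₀, hK₀, hweak⟩ := weak_bound
  have hT : (1 : ℝ) ≤ Tw.twLoss 2 := by norm_num [Tw.twLoss]
  have hc : (1 : ℝ) ≤ cnum := one_le_cnum
  set K : ℝ := (M * (32 * cnum ^ 2 * Tw.twLoss 2) + 2 * K₀) * 3 ^ 10 with hK
  refine ⟨K, by positivity, fun n v hn hv H he => ?_⟩
  have hq := pE_pos hn hv H he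
  set q := pE n H with hqdef
  have hn0 : (0 : ℝ) < n := by exact_mod_cast lt_of_lt_of_le two_pos hn
  have hnq0 : 0 ≤ (n : ℝ) * q := by positivity
  set A : ℝ := max 3 ((n : ℝ) * q) with hAdef
  have hA3 : 3 ≤ A := le_max_left _ _
  have hA10 : A ^ 10 ≤ 3 ^ 10 * (1 + n * q) ^ 10 := by
    rw [← mul_pow]
    exact pow_le_pow_left₀ (by linarith) (max_le (by linarith) (by linarith)) _
  have hlog : 0 ≤ Real.log n := Real.log_nonneg (by exact_mod_cast le_trans one_le_two hn)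
  by_cases hA2 : A ^ 2 ≤ n
  · have hlin : lin A (Tw.twLoss 2) = 32 * cnum ^ 2 * Tw.twLoss 2 * A ^ 10 := rfl
    have hL1 : 1 ≤ lin A (Tw.twLoss 2) :=
      hT.trans (lin_ge (A := A) (by linarith) hT).2
    obtain ⟨h1, h2⟩ := hthr n v hn hv H he _ hL1 fun hL v0 X DF hP =>
      emb_linear hn hv H he hA3 (le_max_right _ _) hA2 hL v0 X DF hP
    have hb : M * lin A (Tw.twLoss 2) * q ≤ K * (1 + n * q) ^ 10 * q := by
      refine mul_le_mul_of_nonneg_right ?_ hq.le
      rw [hlin, hK, ← mul_assoc, mul_assoc _ ((3 : ℝ) ^ 10)]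
      exact mul_le_mul (le_add_of_nonneg_right (by positivity)) hA10 (by positivity)
        (by positivity)
    exact ⟨h1.trans (mul_le_mul_of_nonneg_right hb hlog), h2.trans hb⟩
  · have hl : Real.log n ≤ 2 * A ^ 10 := by
      have h1 := Real.log_le_log hn0 (not_le.1 hA2).le
      rw [Real.log_pow] at h1
      push_cast at h1
      have h2 := Real.log_le_sub_one_of_pos (show 0 < A by linarith)
      have h3 : A ≤ A ^ 10 := le_self_pow₀ (by linarith) (by norm_num)
      linarith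
    obtain ⟨h1, h2⟩ := hweak n v hn hv H he
    have hb : K₀ * q * Real.log n ≤ K * (1 + n * q) ^ 10 * q := by
      calc K₀ * q * Real.log n ≤ K₀ * q * (2 * (3 ^ 10 * (1 + n * q) ^ 10)) :=
            mul_le_mul_of_nonneg_left (hl.trans (by linarith)) (by positivity)
        _ = 2 * K₀ * 3 ^ 10 * (1 + n * q) ^ 10 * q := by ring
        _ ≤ _ := by
            rw [hK]; gcongr
            exact le_add_of_nonneg_left (by positivity)
    exact ⟨h1.trans (mul_le_mul_of_nonneg_right hb hlog), h2.trans hb⟩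

end Vale.Agent.P064.Linear
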